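import Crest.Agent.R182.B.ENG
import Crest.Agent.R182.B.CMP

/-! R182/CLS/Rb: the modular characters match (helper81). -/

set_option autoImplicit false
set_option linter.unusedVariables false
set_option linter.unusedSectionVars false
open Set Filter Topology MeasureTheory ProbabilityTheory Matrix Crest.GroupTheory
open scoped Pointwise commutatorElement ENNReal

noncomputable section
namespace Crest.Agent.R182

namespace Model
variable {h k : ℕ} (M : Model h k)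

theorem rb_smul_E {t w : ℝ} {Y : V h} (hY : Y ∈ t • M.Box w) : Y ∈ M.E := by
  obtain ⟨Y', hY', rfl⟩ := hY
  exact M.E.smul_mem _ (M.Box_subset_E w hY')

/-- purity passes to the points of the box -/
theorem rb_shift (t₀ t ε : ℝ) (ht : 1 ≤ t) (hε : 0 < ε) : ∃ t' ε' : ℝ, 1 ≤ t' ∧ 0 < ε' ∧ ∀ (φ : M.G → M.G) (p : M.G) (w : ℝ) (L : Mat k)
    (κ : Fin k → ℝ), 0 ≤ w → M.PF φ p w L κ t' ε' → ∀ Y ∈ t₀ • M.Box w, M.PF φ (p * M.exp Y) w L κ t ε := by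
  obtain ⟨t', D, ht', hD, hdom⟩ := M.lw_dom (ht.trans (le_max_left t |t₀|))
  have h1 : t ≤ t' := (le_max_left _ _).trans ht'
  have h2 : ε / D ≤ ε := div_le_self hε.le hD
  refine ⟨t', ε / D, ht.trans h1, by positivity, fun φ p w L κ hw hP Y hY s hs g hg => ?_⟩
  have h3 := (hdom M.E (M.RV w) s M.isIdl_E.isSub (M.star_RV w) (M.bxb_compact_RV w) hs.1 (hs.2.trans (le_max_left _ _)) Y
    (M.rb_smul_E hY) (Core.In.mono' (M.star_RV w) hY (le_max_right _ _)) {x | ε * w < ‖M.er φ L (p * x * g) - κ‖}).2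
  have h4 := hP t' ⟨ht.trans h1, le_rfl⟩ g (M.Adm_mono (by gcongr) (by gcongr) hg)
  refine le_trans (le_of_eq ?_) (h3.trans ((mul_le_mul_right (le_trans (measure_mono fun x hx => ?_) h4) _).trans_eq ?_))
  · simp only [mem_ofPred_eq, mul_assoc]; rfl
  · exact lt_of_le_of_lt (show ε / D * w ≤ ε * w by gcongr) hx
  · rw [← ENNReal.ofReal_mul (by positivity), mul_div_cancel₀ _ (by positivity)]

theorem rb_up {t : ℝ} (ht : 1 ≤ t) : ∃ t' D : ℝ, 1 ≤ D ∧ ∀ (w : ℝ) (A : Set M.G) (a : ℝ≥0∞), MeasurableSet A →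
    (∀ Y ∈ t' • M.Box w, M.lw M.E (M.Box w) {x | M.exp Y * x ∈ A} ≤ a) → M.lw M.E (t • M.Box w) A ≤ ENNReal.ofReal D * a := by
  obtain ⟨t', D, ht', hD, hdom⟩ := M.lw_dom ht
  refine ⟨t', D, hD, fun w A a hA ha => ?_⟩
  have i1 := M.isProbabilityMeasure_lw_Box one_pos w
  have i2 := M.isProbabilityMeasure_lw_Box (t := t') (by linarith) w
  rw [one_smul] at i1
  have hm : MeasurableSet {z : M.G × M.G | z.1 * z.2 ∈ A} := measurable_mul hA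
  calc M.lw M.E (t • M.Box w) A = ∫⁻ _, M.lw M.E (t • M.Box w) A ∂M.lw M.E (M.Box w) := by simp
    _ ≤ ∫⁻ x, ENNReal.ofReal D * M.lw M.E (t' • M.Box w) {y | y * x ∈ A} ∂M.lw M.E (M.Box w) := by
      refine lintegral_mono_ae (Eventually.mono (mem_ae_iff.2 (M.lw_compl M.E (M.isCompact_Box w))) ?_)
      rintro _ ⟨X, ⟨hE, hX⟩, rfl⟩
      have := (hdom M.E (M.RV w) t M.isIdl_E.isSub (M.star_RV w) (M.bxb_compact_RV w) ht le_rfl (-X) (neg_mem hE)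
        (Core.In.mono' (M.star_RV w) (t := -1) ⟨X, hX, by simp⟩ (by simpa using ht)) {y | y * M.exp X ∈ A}).1
      simpa [M.exp_neg, Box] using this
    _ = ENNReal.ofReal D * ∫⁻ y, M.lw M.E (M.Box w) {x | y * x ∈ A} ∂M.lw M.E (t' • M.Box w) := by
      rw [lintegral_const_mul' _ _ ENNReal.ofReal_ne_top]
      exact congrArg _ ((Measure.prod_apply_symm hm).symm.trans (Measure.prod_apply hm))
    _ ≤ ENNReal.ofReal D * a := by
      refine mul_le_mul_right ((lintegral_mono_ae (g := fun _ => a) (Eventually.mono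
        (mem_ae_iff.2 (M.lw_compl M.E ((M.isCompact_Box w).smul t'))) ?_)).trans (by simp)) _
      rintro _ ⟨Y, ⟨-, hY⟩, rfl⟩
      exact ha Y hY

/-- from the law on the box to the volume -/
theorem rb_vol (Λ m : ℝ) (hm : 0 < m) : ∃ t D w₀ : ℝ, 1 ≤ D ∧ ∀ w ≥ w₀, ∀ (A : Set M.G) (a : ℝ≥0∞), MeasurableSet A →
    (∀ Y ∈ t • M.Box w, ∀ b ∈ M.Adm (Λ * w) ((1 - m) * w), M.lw M.E (M.Box w) {x | M.exp Y * x * b ∈ A} ≤ a) →
    volume (M.Reg 1 Λ m w ∩ A) ≤ ENNReal.ofReal D * a * M.vol0 w := by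
  obtain ⟨D, hD, -, hmul⟩ := M.exp_Qi_mul 1
  obtain ⟨t', D', ht', hD', hdom⟩ := M.lw_dom hD
  obtain ⟨t, D₂, hD₂, hup⟩ := M.rb_up (hD.trans ht')
  obtain ⟨D₃, w₀, hD₃, hvol⟩ := M.vol_Reg_le D Λ m hm
  refine ⟨t, D' * D₂ * D₃, w₀, one_le_mul_of_one_le_of_one_le (one_le_mul_of_one_le_of_one_le hD' hD₂) hD₃, fun w hw A a hA ha => ?_⟩
  have := M.isProbabilityMeasure_lw_Box one_pos w
  have h1 := M.vol_le_of_fibre (M.lw_compl M.E ((M.isCompact_Box w).smul (1 : ℝ))) hA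
    (M.isCompact_Reg 1 Λ m w).measurableSet (M.isCompact_Reg D Λ m w).measurableSet
    (a := ENNReal.ofReal D' * (ENNReal.ofReal D₂ * a)) (by
      rintro _ ⟨s, hs, _, ⟨y₁, hy₁, g, hg, rfl⟩, rfl⟩
      have hs' : s ∈ M.exp '' ((1 : ℝ) • M.Qi (M.RV w) 1) := by
        rw [← M.inv_exp_Qi (M.star_RV w)]
        exact Set.inv_subset_inv.2 (image_mono inter_subset_right) hs
      exact ⟨s * y₁, hmul _ (M.star_RV w) ⟨s, hs', y₁, hy₁, rfl⟩, g, hg, mul_assoc _ _ _⟩) (by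
      rintro _ ⟨_, ⟨Y, hY, rfl⟩, g, hg, rfl⟩
      have h2 := (hdom M.E (M.RV w) 1 M.isIdl_E.isSub (M.star_RV w) (M.bxb_compact_RV w) le_rfl hD Y (M.rb_smul_E hY) hY
        {x | x * g ∈ A}).1
      refine le_trans (le_of_eq ?_) (h2.trans (mul_le_mul_right
        (hup w {x | x * g ∈ A} a (measurable_mul_const g hA) fun Y hY => ha Y hY g hg) _))
      simp only [mem_ofPred_eq, mul_assoc]
      rfl)
  refine le_trans h1 ((mul_le_mul_right (hvol w hw) _).trans_eq ?_)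
  rw [ENNReal.ofReal_mul (by positivity), ENNReal.ofReal_mul (by positivity)]
  ring

theorem rb_le (K : ℝ) {L : Mat k} (hL : L.det ≠ 0) {d d' : M.G} (hd : M.Dir L d d') {γ : M.G} (hγ : γ ∈ M.ballCR 1)
    (H : ∀ t ε w₀ : ℝ, 0 < ε → ∃ (f : M.QP K) (p : M.G) (w : ℝ) (κ : Fin k → ℝ), w₀ ≤ w ∧ M.PF f.φ p w L κ t ε) :
    M.rb (M.mI (M.chi d)) ⬝ᵥ M.chi γ ≤ M.rb (M.mI (M.chi d')) ⬝ᵥ L *ᵥ M.chi γ := by
  obtain ⟨B, hB, Hcmp⟩ := M.cmp K (M.gi_mI (M.chi d)) (M.gi_mI (M.chi d'))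
  obtain ⟨Λ₁, hΛ₁, H1⟩ := M.eng1 hd.mem
  obtain ⟨Λ₃, hΛ₃, H3⟩ := M.eng3 hd.mem hd.mem'
  obtain ⟨Λ, hΛ, hΛL, hΛL'⟩ : ∃ Λ : ℝ, 1 ≤ Λ ∧ Mb L Λ ∧ Mb L⁻¹ Λ := by
    obtain ⟨a, ha⟩ := (Set.finite_range fun z : Fin k × Fin k => max |L z.1 z.2| |L⁻¹ z.1 z.2|).bddAbove
    exact ⟨max 1 a, le_max_left _ _, fun i j => le_max_of_le_right ((le_max_left _ _).trans (ha ⟨(i, j), rfl⟩)),
      fun i j => le_max_of_le_right ((le_max_right _ _).trans (ha ⟨(i, j), rfl⟩))⟩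
  obtain ⟨δ₀, hδ₀, H3⟩ := H3 K Λ (1 / 2) (by norm_num)
  obtain ⟨A, hA, hA1, hA2⟩ : ∃ A : ℝ, 1 ≤ A ∧ nm (M.chi d) ≤ A ∧ nm (L⁻¹ *ᵥ M.chi d') ≤ A :=
    ⟨max 1 (max _ _), le_max_left _ _, le_max_of_le_right (le_max_left _ _), le_max_of_le_right (le_max_right _ _)⟩
  have hC : 1 ≤ (Λ₁ + Λ₃) * A := by nlinarith
  obtain ⟨θ, hθ, hθ1, hθ2, hθ3⟩ : ∃ θ : ℝ, 0 < θ ∧ θ ≤ δ₀ ∧ θ ≤ 1 / 8 ∧ (Λ₁ + Λ₃) * A * (B * (B * 2)) * θ ≤ 1 / 4 :=
    ⟨min δ₀ (min (1 / 8) (1 / 4 / ((Λ₁ + Λ₃) * A * (B * (B * 2))))), by positivity, min_le_left _ _,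
      (min_le_right _ _).trans (min_le_left _ _), (le_div_iff₀' (by positivity)).1 ((min_le_right _ _).trans (min_le_right _ _))⟩
  obtain ⟨t₀, D, w₁, hD, Hvol⟩ := M.rb_vol 1 (1 - 2 * θ) (by linarith)
  obtain ⟨D', w₂, hD', Hreg⟩ := M.vol_region_le 1 1 θ hθ
  obtain ⟨C, hC0, hC'⟩ : ∃ C : ℝ, 0 < C ∧ nm (M.rb (M.mI (M.chi d'))) * k * 2 + B ≤ C :=
    ⟨_, by have := nm_nonneg (M.rb (M.mI (M.chi d'))); positivity, le_rfl⟩
  refine le_of_forall_pos_le_add fun η hη => ?_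
  obtain ⟨ε, hε, hε1, hε2, hε3⟩ : ∃ ε : ℝ, 0 < ε ∧ ε ≤ θ ∧ (1 + 6 * (D * D')) * ε ≤ 1 / 2 ∧ C * ε ≤ η * θ / 2 :=
    ⟨min θ (min (1 / 2 / (1 + 6 * (D * D'))) (η * θ / 2 / C)), by positivity, min_le_left _ _,
      (le_div_iff₀' (by positivity)).1 ((min_le_right _ _).trans (min_le_left _ _)),
      (le_div_iff₀' hC0).1 ((min_le_right _ _).trans (min_le_right _ _))⟩
  obtain ⟨t₁, ε₁, w₃, ht₁, hε₁, H1⟩ := H1 K Λ (1 / 2) ε (by norm_num) hε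
  obtain ⟨t₃, ε₃, w₄, ht₃, hε₃, H3⟩ := H3 θ ε hθ hθ1 hε
  obtain ⟨t₁', ε₁', ht₁', hε₁', Hsh⟩ := M.rb_shift t₀ t₁ ε₁ ht₁ hε₁
  obtain ⟨t₂, ε₂, w₅, ht₂, hε₂, Hpv⟩ := M.pv 1 1 (1 - 2 * θ) ε (by linarith) hε
  obtain ⟨f, p, w, κ, hw, hP⟩ := H (max t₁' (max t₂ t₃)) (min ε₁' (min ε₂ ε₃))
    (max (max (max w₁ w₂) (max w₃ w₄)) (max w₅ (2 / ε))) (by positivity)
  simp only [max_le_iff] at hw
  obtain ⟨⟨⟨hw₁, hw₂⟩, hw₃, hw₄⟩, hw₅, hw₆⟩ := hw
  have hw0 : 0 < w := lt_of_lt_of_le (by positivity) hw₆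
  rw [div_le_iff₀' hε] at hw₆
  have hεw : ε * w ≤ θ * w := by gcongr
  have hn1 : (⌊θ * w⌋₊ : ℝ) ≤ θ * w := Nat.floor_le (by positivity)
  have hn2 : θ * w < ⌊θ * w⌋₊ + 1 := Nat.lt_floor_add_one _
  generalize ⌊θ * w⌋₊ = n at hn1 hn2
  have hg : γ ^ n ∈ M.ballR (θ * w) := M.ballR_mono (by simpa using hn1) (M.ballCR_subset_ballR _ (M.pow_mem_ballCR hγ n))
  obtain ⟨r, hr⟩ : ∃ r, r = B * (2 * (θ * w)) := ⟨_, rfl⟩
  have hr0 : θ * w ≤ r := by nlinarith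
  have hrR : r ≤ B * r := by nlinarith
  have hR : (Λ₁ + Λ₃) * A * (B * r) ≤ w / 4 := by
    have := mul_le_mul_of_nonneg_right hθ3 hw0.le
    rw [hr]; linarith
  have hR0 : 0 ≤ B * r := by nlinarith
  have hRw : B * r ≤ w := by nlinarith
  have room : ∀ (a v : Fin k → ℝ) (Λ' : ℝ), nm a ≤ w / 4 → nm v ≤ A → Λ' ≤ Λ₁ + Λ₃ → Room a v (Λ' * (B * r)) ((1 - 1 / 2) * w) :=
    fun a v Λ' ha hv hΛ' s hs => by
      rw [sub_eq_add_neg, ← neg_smul]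
      refine (nm_add_le _ _).trans ?_
      rw [nm_smul, abs_neg, abs_of_nonneg hs.1]
      have : s * nm v ≤ (Λ₁ + Λ₃) * (B * r) * A := mul_le_mul (hs.2.trans (by gcongr)) hv (nm_nonneg _) (by positivity)
      linarith
  have hvP2 : ∀ g ∈ M.ballR (B * r), volume (M.Reg 1 1 (1 - 2 * θ) w ∩
      {y | ¬M.P2 f.φ (M.mI (M.chi d)) (M.mI (M.chi d')) (B * r) (ε * w) (p * y) g}) ≤ ENNReal.ofReal (D * ε) * M.vol0 w := by
    intro g hg
    rw [ENNReal.ofReal_mul (by positivity)]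
    refine Hvol w hw₁ _ _ (measurable_const_mul p (M.measurableSet_P2 f.mφ _ (M.gi_mI _).idl.isSub _ _ _)).compl fun Y hY b hb => ?_
    simpa only [mem_ofPred_eq, mul_assoc] using H1 f (p * M.exp Y) w (B * r) L κ d' hw₃ (by linarith) hRw hΛL hd
      (Hsh _ _ _ _ _ hw0.le (hP.mono hw0.le (le_max_left _ _) (min_le_left _ _)) Y hY) b
      (M.Adm_mono (by gcongr) (by nlinarith) hb) (room _ _ _ ((M.nm_chi_le_of_Adm hb).trans (by nlinarith)) hA1 (by linarith)) g hg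
  have hv3 := Hpv f.φ p w L κ f.mφ hw₅ (hP.mono hw0.le (le_max_of_le_right (le_max_left _ _))
    ((min_le_right _ _).trans (min_le_left _ _)))
  have h1C : (1 : M.G) ∈ M.AdmC (Λ * w) ((1 - 1 / 2) * w) :=
    ⟨[], by simp [WrdC], by simp; positivity, by simp [chi_one, nm]; positivity, rfl⟩
  have hv4 := H3 f p w (B * r) r L κ hw₄ (by linarith) hrR hRw hL hΛL hΛL' hd (hP.mono hw0.le (le_max_of_le_right (le_max_right _ _))
    ((min_le_right _ _).trans (min_le_right _ _))) 1 h1C (room _ _ _ (by simp [chi_one, nm]; positivity) hA1 (by linarith))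
    (room _ _ _ (by simp [chi_one, nm]; positivity) hA2 (by linarith))
  have hv5 := Hreg w hw₂ 1 (M.one_mem_ballCR (by positivity))
  rw [one_smul, one_mul] at hv5
  have hZ0 := M.vol_Z_pos w M.C.one_mem (ρ := θ * w) (by linarith)
  have hZc : IsCompact (M.exp '' M.Box w * {1} * M.ballCR (θ * w)) :=
    (((M.isCompact_Box w).image M.continuous_exp).mul isCompact_singleton).mul (M.isCompact_ballCR _)
  have hZ : ∀ z ∈ M.exp '' M.Box w * {1} * M.ballCR (θ * w), ∀ g ∈ M.ballR (θ * w), z * g ∈ M.Reg 1 1 (1 - 2 * θ) w := by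
    rintro _ ⟨_, ⟨x, hx, _, rfl, rfl⟩, b, hb, rfl⟩ g hg
    have h0 : (1 : M.G) ∈ M.Adm 0 0 := ⟨[], by simp [Wrd], by simp, by simp [chi_one, nm], rfl⟩
    exact ⟨x, by rwa [one_smul], 1 * b * g, M.Adm_mono (by nlinarith) (by linarith)
      (M.mul_mem_Adm' (M.mul_mem_Adm' h0 (M.ballCR_subset_ballR _ hb)) hg), by simp [mul_assoc]⟩
  generalize M.exp '' M.Box w * {1} * M.ballCR (θ * w) = Z at hv4 hv5 hZ0 hZc hZ
  rw [cond_apply hZc.measurableSet, ENNReal.inv_mul_le_iff hZ0.ne' hZc.measure_lt_top.ne] at hv4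
  obtain ⟨S, hS, hSv⟩ : ∃ S : Set M.G, (∀ y ∈ M.Reg 1 1 (1 - 2 * θ) w, y ∉ S → ‖M.er f.φ L (p * y) - κ‖ ≤ ε * w ∧
      ∀ g ∈ [1, γ ^ n], M.P2 f.φ (M.mI (M.chi d)) (M.mI (M.chi d')) (B * r) (ε * w) (p * y) g) ∧
      volume S ≤ ENNReal.ofReal (3 * (D * D') * ε) * volume Z := by
    refine ⟨_, fun y hy hS => ?_, ((measure_union_le _ _).trans (add_le_add hv3 ((measure_union_le _ _).trans (add_le_add
      (hvP2 1 (M.one_mem_ballR hR0)) (hvP2 _ (M.ballR_mono (hr0.trans hrR) hg)))))).trans ?_⟩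
    · simp only [mem_union, mem_inter_iff, mem_ofPred_eq, hy, true_and, not_or, not_not, not_lt] at hS
      simpa using hS
    · rw [← add_mul, ← add_mul, ← ENNReal.ofReal_add (by positivity) (by positivity),
        ← ENNReal.ofReal_add (by positivity) (by positivity)]
      refine (mul_le_mul_right hv5 _).trans ?_
      rw [← mul_assoc, ← ENNReal.ofReal_mul (by positivity)]
      refine mul_le_mul_left (ENNReal.ofReal_le_ofReal ?_) _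
      linarith [mul_le_mul_of_nonneg_right hD (by positivity : 0 ≤ D' * ε)]
  obtain ⟨z, hz, hz1, hz2, hz3⟩ : ∃ z ∈ Z, M.P3 f.φ f.ψ (M.mI (M.chi d)) (M.mI (M.chi d')) (B * r) r (ε * w) (p * z) ∧
      z ∉ S ∧ z * γ ^ n ∉ S := by
    by_contra hcon
    have h1 := (measure_mono (μ := volume) (s := Z) fun z hz => ?_).trans ((measure_union_le _ _).trans (add_le_add hv4
      ((measure_union_le _ _).trans (add_le_add hSv ((measure_preimage_mul_right volume (γ ^ n) S).le.trans hSv)))))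
    · rw [mul_comm, ← add_mul, ← add_mul, ← ENNReal.ofReal_add (by positivity) (by positivity),
        ← ENNReal.ofReal_add (by positivity) (by positivity)] at h1
      have h2 := (ENNReal.mul_le_mul_iff_left hZ0.ne' hZc.measure_lt_top.ne).1 ((one_mul _).le.trans h1)
      rw [ENNReal.one_le_ofReal] at h2
      linarith
    · by_contra h2
      simp only [mem_union, mem_inter_iff, mem_ofPred_eq, mem_preimage, not_or, not_and, not_not] at h2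
      exact hcon ⟨z, hz, h2.1 hz, h2.2⟩
  obtain ⟨a1, a2⟩ := hS z (by simpa using hZ z hz 1 (M.one_mem_ballR (by positivity))) hz2
  obtain ⟨b1, b2⟩ := hS _ (hZ z hz _ hg) hz3
  rw [← mul_assoc] at b1 b2
  have h1 := Hcmp f (B * r) r (θ * w) (ε * w) (p * z) (γ ^ n) (by linarith) (by linarith) (by rw [hr]; gcongr; linarith) le_rfl hg
    ⟨a2 1 (by simp), b2 _ (by simp), hz1⟩
  have h2 : ‖M.cc f.φ (γ ^ n) (p * z) - L *ᵥ M.chi (γ ^ n)‖ ≤ 2 * (ε * w) := by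
    rw [← er_sub, ← sub_sub_sub_cancel_right _ _ κ]
    exact (norm_sub_le _ _).trans (by linarith)
  have h3 := (abs_le.1 ((abs_dot_le (M.rb (M.mI (M.chi d'))) _).trans
    (mul_le_mul_of_nonneg_left (mul_le_mul_of_nonneg_left h2 (Nat.cast_nonneg k)) (nm_nonneg _)))).2
  rw [dotProduct_sub] at h3
  simp only [chi_pow, mulVec_smul, dotProduct_smul, smul_eq_mul] at h1 h3
  have hn : θ * w / 2 ≤ n := by linarith
  refine le_of_mul_le_mul_left ?_ (show (0 : ℝ) < n by linarith)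
  nlinarith [mul_le_mul_of_nonneg_right hC' (by positivity : 0 ≤ ε * w), mul_le_mul_of_nonneg_right hε3 hw0.le,
    mul_le_mul_of_nonneg_left hn hη.le]

/-- P2 (`Occ.rb` with `Occ` unfolded) -/
theorem rb_of_occ2 {K : ℝ} {L : Mat k} (hL : L.det ≠ 0)
    (H : ∀ t ε w₀ : ℝ, 0 < ε → ∃ (f : M.QP K) (p : M.G) (w : ℝ) (κ : Fin k → ℝ), w₀ ≤ w ∧ M.PF f.φ p w L κ t ε) :
    ∀ r ∈ M.RB, ∃ r' ∈ M.RB, r = r' ᵥ* L := by
  rintro _ ⟨v, hv, rfl⟩
  obtain ⟨d, d', hd, hs⟩ := M.exists_dir hL hv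
  refine ⟨_, ⟨_, hd.reg', rfl⟩, funext fun i => ?_⟩
  have h1 := M.rb_le K hL hd (M.gen_mem_ballCR i) H
  have h2 := M.rb_le K hL hd (M.inv_mem_ballCR (M.gen_mem_ballCR i)) H
  rw [chi_inv, mulVec_neg, dotProduct_neg, dotProduct_neg, neg_le_neg_iff] at h2
  have h3 := le_antisymm h1 h2
  rw [dotProduct_mulVec, chi_gen, dotProduct_single_one, dotProduct_single_one, M.mI_congr hs] at h3
  exact h3

end Model

end Crest.Agent.R182
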